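import Vale.Agent.P043.Gadget.Four.Eqns

/-!
P043 gadgets in rank two: a solution gives a section satisfying the equations.
-/

namespace Vale.Agent.P043.Gadget.Four

variable {L : LineSys}

theorem flip_int {f : ℤ → Bool} (h : ∀ n, f (n + 1) = !f n) (n : ℤ) :
    (((f n).toNat : ℕ) : ZMod 2) = (((f 0).toNat : ℕ) : ZMod 2) + (n : ZMod 2) := by
  have hb : ∀ b : Bool, ((((!b).toNat : ℕ)) : ZMod 2) = ((b.toNat : ℕ) : ZMod 2) + 1 := by decide
  induction n using Int.induction_on with
  | zero => simp
  | succ i ih =>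
    rw [h, hb, ih]
    push_cast
    ring
  | pred i ih =>
    have h' := h (-(i : ℤ) - 1)
    rw [sub_add_cancel] at h'
    rw [h', hb] at ih
    push_cast at ih ⊢
    linear_combination ih

theorem const_int {f : ℤ → Bool} (h : ∀ n, f (n + 1) = f n) (n : ℤ) : f n = f 0 := by
  induction n using Int.induction_on with
  | zero => rfl
  | succ i ih => rw [h, ih]
  | pred i ih =>
    have h' := h (-(i : ℤ) - 1)
    rw [sub_add_cancel, ih] at h'
    exact h'.symm

/-- The value of the marker slope of a solution. -/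
def mark (c : ℤ × ℤ → L.B → Bool) (x : ℤ × ℤ) : Bool := xor (c x L.parX) (c x L.parY)

/-- The phase of the markers. -/
def phase (c : ℤ × ℤ → L.B → Bool) (x : ℤ × ℤ) : ℤ := x.1 + x.2 + ((mark c 0).toNat : ℕ)

theorem phase_two {c : ℤ × ℤ → L.B → Bool} (hc : L.IsSol c) (x : ℤ × ℤ) :
    (phase c x : ZMod 2) = (((mark c x).toNat : ℕ) : ZMod 2) := by
  obtain ⟨-, hxx, hxy, hyx, hyy, -⟩ := hc
  obtain ⟨n, m⟩ := x
  have hxor : ∀ a b : Bool, (((xor a b).toNat : ℕ) : ZMod 2)
      = ((a.toNat : ℕ) : ZMod 2) + ((b.toNat : ℕ) : ZMod 2) := by decide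
  have eX : c (n, m) L.parX = c (n, 0) L.parX := const_int (f := fun k => c (n, k) L.parX)
    (fun k => by simpa using hxy (n, k)) m
  have eY : c (n, m) L.parY = c (0, m) L.parY := const_int (f := fun k => c (k, m) L.parY)
    (fun k => by simpa using hyx (k, m)) n
  have fX := flip_int (f := fun k => c (k, 0) L.parX) (fun k => by simpa using hxx (k, 0)) n
  have fY := flip_int (f := fun k => c (0, k) L.parY) (fun k => by simpa using hyy (0, k)) m
  rw [mark, hxor, eX, eY, fX, fY, phase, mark]
  push_cast
  rw [hxor]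
  simp only [Prod.mk_zero_zero]
  ring

/-- The values of a solution, with the marker slope. -/
def ext' (c : ℤ × ℤ → L.B → Bool) (x : ℤ × ℤ) : Option L.B → Bool
  | none => mark c x
  | some b => c x b

/-- The coordinates of the section of a solution. -/
noncomputable def coord (c : ℤ × ℤ → L.B → Bool) (g : Amb L) :
    (o : Option L.B) → ZMod (qO L o)
  | none => high g.2.1.1 + high (g.2.1.1 - (phase c g.1 : ZMod 4)) + g.2.1.2
  | some b => (((c g.1 b).toNat : ℕ) : ZMod (prm L b)) * (g.2.2 b).1 + (g.2.2 b).2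

/-- The section attached to a solution. -/
noncomputable def section' (c : ℤ × ℤ → L.B → Bool) (g : Amb L) : sub L :=
  mk (high (g.2.1.1 - (phase c g.1 : ZMod 4))) (coord c g)

theorem phi0_section (c : ℤ × ℤ → L.B → Bool) (g : Amb L) :
    phi0 L (section' c g) = high (g.2.1.1 - (phase c g.1 : ZMod 4)) := phi0_mk _ _

theorem chi_section (c : ℤ × ℤ → L.B → Bool) (o : Option L.B) (g : Amb L) :
    chi L o (section' c g) = coord c g o := chi_mk _ _ o

theorem phi1_section (c : ℤ × ℤ → L.B → Bool) (g : Amb L) :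
    phi1 L (section' c g) = high g.2.1.1 + g.2.1.2 := by
  rw [phi1, AddMonoidHom.add_apply, phi0_section, chi_section]
  show _ + (high g.2.1.1 + high (g.2.1.1 - (phase c g.1 : ZMod 4)) + g.2.1.2) = _
  generalize high (g.2.1.1 - (phase c g.1 : ZMod 4)) = a
  generalize high g.2.1.1 = b
  generalize g.2.1.2 = e
  revert a b e
  decide

theorem section_equivariant (c : ℤ × ℤ → L.B → Bool) : Equivariant (section' c) := by
  intro g κ
  obtain ⟨h1, h2⟩ := mem_sub.mp κ.2
  have hp : (g + inj κ).1 = g.1 := by simp [inj]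
  refine ext_sub ?_ fun o => ?_
  · rw [map_add, phi0_section, phi0_section, hp]
    show high (g.2.1.1 + κ.1.1.1 - _) = _
    rw [add_sub_right_comm, high_add_of_even _ _ h1]
    rfl
  · rw [map_add, chi_section, chi_section]
    cases o with
    | none =>
      show high (g.2.1.1 + κ.1.1.1) + high (g.2.1.1 + κ.1.1.1 - (phase c (g + inj κ).1 : ZMod 4))
        + (g.2.1.2 + κ.1.1.2) = _
      rw [hp, add_sub_right_comm, high_add_of_even _ _ h1, high_add_of_even _ _ h1]
      show _ = high g.2.1.1 + high (g.2.1.1 - (phase c g.1 : ZMod 4)) + g.2.1.2 + κ.1.1.2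
      generalize high g.2.1.1 = a
      generalize high (g.2.1.1 - (phase c g.1 : ZMod 4)) = b
      generalize high κ.1.1.1 = e
      generalize g.2.1.2 = u
      generalize κ.1.1.2 = v
      revert a b e u v
      decide
    | some b =>
      show (((c (g + inj κ).1 b).toNat : ℕ) : ZMod (prm L b)) * ((g.2.2 b).1 + (κ.1.2 b).1)
        + ((g.2.2 b).2 + (κ.1.2 b).2) = _
      rw [hp, h2 b, add_zero]
      show _ = (((c g.1 b).toNat : ℕ) : ZMod (prm L b)) * (g.2.2 b).1 + (g.2.2 b).2 + (κ.1.2 b).2
      ring

theorem incr_section {c : ℤ × ℤ → L.B → Bool} (hc : L.IsSol c) (o : Option L.B) (g : Amb L) :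
    incr (chi L o) (st L o) (section' c) g
      = (((ext' c g.1 o).toNat : ℕ) : ZMod (qO L o)) := by
  unfold incr
  rw [chi_section, chi_section]
  cases o with
  | none =>
    simp only [ext', ← phase_two hc]
    have h := high_markers g.2.1.1 (phase c g.1 : ZMod 4)
    rw [map_intCast] at h
    simp [coord, st] at h ⊢
    linear_combination h
  | some b => simp [coord, st, ext', mul_add]

theorem section_good {c : ℤ × ℤ → L.B → Bool} (hc : L.IsSol c) : Good (section' c) := by
  obtain ⟨hper, hxx, hxy, hyx, hyy, hcl⟩ := id hc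
  have hslope : ∀ o g, slope (section' c) o g = ext' c g.1 o := by
    intro o g
    have : Fact (1 < qO L o) := ⟨one_lt_qO L o⟩
    unfold slope
    rw [incr_section hc]
    cases ext' c g.1 o <;> simp
  refine ⟨fun d g => ?_, fun d g => ?_, fun o o' ho g => ?_, fun b _ g => ?_, fun d g => ?_,
    fun b g => ?_, fun g => ?_⟩
  · rw [phi0_section, phi0_section, add_zero]
    cases d <;> simp [eV, st, phase] <;> congr 1 <;> ring
  · rw [phi1_section, phi1_section, add_zero]
    cases d <;> simp [eV]
  · rw [chi_section, chi_section, add_zero]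
    rcases o with _ | b <;> rcases o' with _ | b'
    · exact absurd rfl ho
    · simp [coord, st]
    · simp [coord, st]
    · have hb : b ≠ b' := fun e => ho (e ▸ rfl)
      simp [coord, st, Pi.single_eq_of_ne hb]
  · rw [chi_section, chi_section, add_zero]
    simp [coord, hper]
  · rw [chi_section, chi_section, add_zero]
    cases d <;> simp [coord, eV, parBit, hxy, hyx]
  · rw [incr_section hc, incr_section hc]
    refine ⟨?_, by simp [ext', st]⟩
    cases ext' c g.1 (some b) <;> simp
  · rw [Allowed]
    simp only [hslope]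
    exact ⟨fun K hK => hcl g.1 K hK, rfl⟩

end Vale.Agent.P043.Gadget.Four
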