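import Vale.Agent.P043.Gadget.Four.Sound
import Vale.Agent.P043.Gadget.Four.Complete

/-!
P043: every line system becomes a system of tiling equations whose finite group has two
generators.
-/

namespace Vale.Agent.P043

/-- A finite system as in `HasSystem`, the finite group having two generators. -/
def HasSystemFour : Prop :=
  ∃ (Γ : Type) (_ : AddCommGroup Γ) (_ : Fintype Γ) (K : AddSubgroup Γ) (ι : Type)
    (_ : Fintype ι) (F : ι → Finset ((ℤ × ℤ) × Γ)),
    (∀ i, (F i).card = (fibre K).card) ∧ (∃ i, F i = fibre K) ∧
    (∃ π : (Fin 2 → ℤ) →+ Γ, Function.Surjective π) ∧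
    (∃ A, SystemTiles F A) ∧ (∀ A, SystemTiles F A → ¬ IsPeriodic A)

namespace Gadget.Four

variable {L : LineSys}

theorem systemTiles_zeroSet_iff {k : Amb L → sub L} (hk : Equivariant k) :
    SystemTiles (eqn L) (zeroSet k) ↔ AllHold L k := by
  constructor
  · intro h j R hR
    have := h j
    rw [eqn, hR] at this
    exact (isTiling_tile_iff R hk).mp this
  · intro h j
    rw [eqn]
    cases hR : roles L j with
    | none => exact isTiling_fibre_zeroSet hk
    | some R => exact (isTiling_tile_iff R hk).mpr (h j R hR)

/-- Line systems give systems with two finite generators. -/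
theorem hasSystemFour : CorePin → HasSystemFour := by
  rintro ⟨L, ⟨c, hc⟩, hno⟩
  have hk := section_equivariant (L := L) c
  have hall := allHold_of_good hk (section_good hc)
  refine ⟨Gam L, inferInstance, inferInstance, sub L, Idx L, Fintype.ofFinite _, eqn L,
    fun j => ?_, ⟨Idx.fib, rfl⟩, exists_generators, ⟨zeroSet (section' c),
      (systemTiles_zeroSet_iff hk).mpr hall⟩, fun A hA hper => ?_⟩
  · rw [eqn]
    cases hR : roles L j with
    | none => rfl
    | some R => exact card_tile R hk (hall j R hR)
  · obtain ⟨k, hk', rfl⟩ := exists_section (hA Idx.fib)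
    have hgood := good_of_allHold hk' ((systemTiles_zeroSet_iff hk').mp hA)
    exact hno _ (zeroSet_periodic_perSol hk' hgood hper)

end Gadget.Four

end Vale.Agent.P043
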