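import Vale.Agent.P043.Gadget.Four.Group
import Vale.Agent.P043.Gadget.Cycle

/-!
P043 gadgets in rank two: the equations. A forbidden assignment of all variables gives one
cyclic equation.
-/

namespace Vale.Agent.P043.Gadget.Four

noncomputable section

variable (L : LineSys)

/-- The assignments of variables and marker slope allowed at one point. -/
def Allowed (f : Option L.B → Bool) : Prop :=
  (∀ K ∈ L.clauses, ∃ i : Fin 3, f (some (K i).1) = (K i).2) ∧
    f none = xor (f (some L.parX)) (f (some L.parY))

/-- Number of variables. -/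
def m : ℕ := Fintype.card L.B

theorem card_option_vars : Fintype.card (Option L.B) = m L + 1 := Fintype.card_option

/-- Enumeration of the coordinates. -/
def enum : Fin (m L + 1) ≃ Option L.B := (Fintype.equivFinOfCardEq (card_option_vars L)).symm

/-- Enumeration of the roles of a clause. -/
def roleOf : Fin (Fintype.card (Fin (m L + 1) → Bool)) ≃ (Fin (m L + 1) → Bool) :=
  (Fintype.equivFin _).symm

/-- The shift of a role. -/
def wSum (t : Fin (m L + 1) → Bool) : Amb L :=
  ∑ i, if t i then st L (enum L i) else 0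

/-- The spatial directions. -/
def eV (d : Bool) : Amb L := (if d then (0, 1) else (1, 0), 0)

/-- The parity variables. -/
def parBit (d : Bool) : L.B := if d then L.parY else L.parX

variable {L}

theorem rho_wSum (t : Fin (m L + 1) → Bool) (i : Fin (m L + 1)) :
    rho L (enum L i) (wSum L t) = (((t i).toNat : ℕ) : ZMod (qO L (enum L i))) := by
  rw [wSum, map_sum, Finset.sum_eq_single i]
  · cases t i <;> simp [rho_st_self]
  · intro j _ hj
    cases t j <;> simp [rho_st_ne fun e => hj ((enum L).injective e)]
  · simp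

theorem wSum_sep (t t' : Fin (m L + 1) → Bool) (κ : sub L) (h : wSum L t = wSum L t' + inj κ) :
    t = t' := by
  funext i
  have : Fact (1 < qO L (enum L i)) := ⟨one_lt_qO L _⟩
  have e := congrArg (rho L (enum L i)) h
  rw [map_add, rho_inj, add_zero, rho_wSum, rho_wSum] at e
  cases h1 : t i <;> cases h2 : t' i <;> simp [h1, h2] at e ⊢

variable (L)

/-- The roles of a forbidden assignment `g`. -/
def clauseRoles (g : Option L.B → Bool) : Roles (Gam L) (sub L) where
  n := Fintype.card (Fin (m L + 1) → Bool)
  w := fun r => wSum L (roleOf L r)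
  T := fun r => {κ | Cycle.Pat (fun i => !g (enum L i)) (roleOf L r)
    fun i => chi L (enum L i) κ}
  sep := fun _ _ _ h => (roleOf L).injective (wSum_sep _ _ _ h)

variable {L}

theorem st_ne_inj (o : Option L.B) (κ : sub L) : st L o ≠ inj κ := by
  intro h
  have : Fact (1 < qO L o) := ⟨one_lt_qO L _⟩
  have e := congrArg (rho L o) h
  rw [rho_inj, rho_st_self] at e
  exact one_ne_zero e

theorem st_add_st_ne_inj (b : L.B) (κ : sub L) : st L (some b) + st L (some b) ≠ inj κ := by
  intro h
  have e := congrArg (rho L (some b)) h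
  rw [rho_inj, map_add, rho_st_self] at e
  have h2 : ((2 : ℕ) : ZMod (prm L b)) = 0 := by rw [Nat.cast_two, ← e]; norm_num
  rw [ZMod.natCast_eq_zero_iff] at h2
  exact absurd (Nat.le_of_dvd (by norm_num) h2) (by have := three_le_prm L b; omega)

theorem eV_add_ne_inj (d : Bool) (a : Amb L) (ha : a.1 = 0) (κ : sub L) :
    eV L d + a ≠ inj κ := by
  intro h
  have e := congrArg Prod.fst h
  cases d <;> simp [eV, inj, ha] at e

theorem eV_ne_inj (d : Bool) (κ : sub L) : eV L d ≠ inj κ := by
  have := eV_add_ne_inj d (0 : Amb L) rfl κ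
  rwa [add_zero] at this

theorem perV_ne_inj {b : L.B} (hb : L.per b ≠ 0) (κ : sub L) :
    ((L.per b, 0) : Amb L) ≠ inj κ := fun h => hb (congrArg Prod.fst h)

theorem chi_surjective (o : Option L.B) : Function.Surjective (chi L o) := fun a => by
  classical
  exact ⟨mk 0 (Pi.single o a), by rw [chi_mk, Pi.single_eq_same]⟩

theorem phi0_surjective : Function.Surjective (phi0 L) := fun a => ⟨mk a 0, phi0_mk a 0⟩

theorem phi1_surjective : Function.Surjective (phi1 L) := fun a =>
  ⟨mk a 0, by
    rw [phi1, AddMonoidHom.add_apply, phi0_mk, chi_mk]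
    exact add_zero a⟩

variable (L)

/-- Indices of the equations. -/
inductive Idx where
  | fib
  | twist (d : Bool)
  | still (d : Bool)
  | chiSt (o : Option L.B) (o' : {x : Option L.B // x ≠ o})
  | chiPer (b : {x : L.B // L.per x ≠ 0})
  | parPer (d : Bool)
  | bit (b : L.B)
  | clause (g : {g : Option L.B → Bool // ¬ Allowed L g})

instance instFintypeForbidden : Fintype {g : Option L.B → Bool // ¬ Allowed L g} :=
  Fintype.ofFinite _

instance instFiniteIdx : Finite (Idx L) :=
  Finite.of_injective
    (fun j : Idx L => match j with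
      | .fib => (Sum.inl none : Option (Bool ⊕ Bool ⊕ Bool ⊕ L.B) ⊕
          (Option L.B × Option L.B) ⊕ L.B ⊕ (Option L.B → Bool))
      | .twist d => Sum.inl (some (Sum.inl d))
      | .still d => Sum.inl (some (Sum.inr (Sum.inl d)))
      | .parPer d => Sum.inl (some (Sum.inr (Sum.inr (Sum.inl d))))
      | .bit b => Sum.inl (some (Sum.inr (Sum.inr (Sum.inr b))))
      | .chiSt o o' => Sum.inr (Sum.inl (o, o'.1))
      | .chiPer b => Sum.inr (Sum.inr (Sum.inl b.1))
      | .clause g => Sum.inr (Sum.inr (Sum.inr g.1)))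
    (by
      intro a b h
      cases a <;> cases b <;> simp at h <;> simp_all [Subtype.ext_iff]
      obtain ⟨rfl, h2⟩ := h
      exact heq_of_eq (Subtype.ext h2))

/-- The roles of an equation other than the fibre. -/
def roles : Idx L → Option (Roles (Gam L) (sub L))
  | .fib => none
  | .twist d => some (stepRoles (phi0 L) (eV L d + st L none) 0
      (eV_add_ne_inj d (st L none) rfl))
  | .still d => some (stepRoles (phi1 L) (eV L d) 0 (eV_ne_inj d))
  | .chiSt o o' => some (stepRoles (chi L o) (st L o'.1) 0 (st_ne_inj _))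
  | .chiPer b => some (stepRoles (chi L (some b.1)) (L.per b.1, 0) 0 (perV_ne_inj b.2))
  | .parPer d => some (stepRoles (chi L (some (parBit L d))) (eV L (!d)) 0 (eV_ne_inj _))
  | .bit b => some (bitRoles (chi L (some b)) (st L (some b)) (st_ne_inj _) (st_add_st_ne_inj b))
  | .clause g => some (clauseRoles L g.1)

/-- The tile of an equation. -/
def eqn (j : Idx L) : Finset (Amb L) :=
  match roles L j with
  | none => fibre (sub L)
  | some R => R.tile

/-- All non-fibre roles hold. -/
def AllHold (k : Amb L → sub L) : Prop :=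
  ∀ j R, roles L j = some R → Holds R k

variable {L}

/-- The slope of a coordinate, as a truth value. -/
def slope (k : Amb L → sub L) (o : Option L.B) (g : Amb L) : Bool :=
  decide (incr (chi L o) (st L o) k g = 1)

/-- Everything the equations say about a section. -/
structure Good (k : Amb L → sub L) : Prop where
  twist : ∀ d, Step (phi0 L) (eV L d + st L none) 0 k
  still : ∀ d, Step (phi1 L) (eV L d) 0 k
  chiSt : ∀ o o', o' ≠ o → Step (chi L o) (st L o') 0 k
  chiPer : ∀ b, L.per b ≠ 0 → Step (chi L (some b)) (L.per b, 0) 0 k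
  parPer : ∀ d, Step (chi L (some (parBit L d))) (eV L (!d)) 0 k
  bit : ∀ b, IsBit (chi L (some b)) (st L (some b)) k
  clause : ∀ g, Allowed L fun o => slope k o g

theorem incr_eq_slope {k : Amb L → sub L} (hbit : ∀ b, IsBit (chi L (some b)) (st L (some b)) k)
    (o : Option L.B) (g : Amb L) :
    incr (chi L o) (st L o) k g = (((slope k o g).toNat : ℕ) : ZMod (qO L o)) := by
  cases o with
  | none =>
    have key : ∀ a : ZMod 2, a = (((decide (a = 1)).toNat : ℕ) : ZMod 2) := by decide
    exact key _
  | some b =>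
    rcases (hbit b g).1 with e | e <;> simp [slope, e]

theorem chi_add_wSum {k : Amb L → sub L} (hS : ∀ o o', o' ≠ o → Step (chi L o) (st L o') 0 k)
    (hbit : ∀ b, IsBit (chi L (some b)) (st L (some b)) k) (t : Fin (m L + 1) → Bool) (g : Amb L)
    (i : Fin (m L + 1)) :
    chi L (enum L i) (k (g + wSum L t)) = chi L (enum L i) (k g) +
      (((t i && slope k (enum L i) g).toNat : ℕ) : ZMod (qO L (enum L i))) := by
  classical
  rw [wSum, ← Finset.add_sum_erase Finset.univ _ (Finset.mem_univ i), ← add_assoc]
  have hrest : Step (chi L (enum L i))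
      (∑ j ∈ Finset.univ.erase i, if t j then st L (enum L j) else 0) 0 k := by
    apply Finset.sum_induction (p := fun w => Step (chi L (enum L i)) w 0 k)
    · intro a b ha hb
      simpa using ha.add hb
    · intro g
      simp
    · intro j hj
      rw [Finset.mem_erase] at hj
      cases t j
      · intro g
        simp
      · exact hS _ _ fun e => hj.1 ((enum L).injective e)
  rw [hrest, add_zero]
  cases ht : t i
  · simp
  · simp only [if_true, Bool.true_and]
    rw [← incr_eq_slope hbit, incr]
    ring

theorem holds_clauseRoles {k : Amb L → sub L} (hk : Equivariant k)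
    (hS : ∀ o o', o' ≠ o → Step (chi L o) (st L o') 0 k)
    (hbit : ∀ b, IsBit (chi L (some b)) (st L (some b)) k) (g₀ : Option L.B → Bool) :
    Holds (clauseRoles L g₀) k ↔ ∀ g, (fun o => slope k o g) ≠ g₀ := by
  classical
  have hcount : ∀ g, (∃! r : Fin (clauseRoles L g₀).n,
        k (g + (clauseRoles L g₀).w r) ∈ (clauseRoles L g₀).T r) ↔
      ∃! t : Fin (m L + 1) → Bool, Cycle.Pat (fun i => !g₀ (enum L i)) t fun i =>
        chi L (enum L i) (k g) + (((t i && slope k (enum L i) g).toNat : ℕ) : ZMod _) := by
    intro g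
    refine (Equiv.existsUnique_congr (roleOf L) fun {r} => ?_)
    show Cycle.Pat _ _ (fun i => chi L (enum L i) (k (g + wSum L (roleOf L r)))) ↔ _
    rw [funext fun i => chi_add_wSum hS hbit (roleOf L r) g i]
    rfl
  constructor
  · intro h g hg
    obtain ⟨z, hz⟩ := Cycle.exists_no_pat (fun i => one_lt_qO L (enum L i))
      (fun i => !g₀ (enum L i)) (fun i => slope k (enum L i) g)
      (fun i => by rw [← hg]; simp)
    let f : (o : Option L.B) → ZMod (qO L o) := fun o =>
      Equiv.piCongrLeft (fun o => ZMod (qO L o)) (enum L) z o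
    have hf : ∀ i, f (enum L i) = z i := fun i => 
      Equiv.piCongrLeft_apply_apply (fun o => ZMod (qO L o)) (enum L) z i
    let κ : sub L := mk 0 fun o => f o - chi L o (k g)
    obtain ⟨t, ht, -⟩ := (hcount (g + inj κ)).1 (h (g + inj κ))
    refine hz t ?_
    have e1 : ∀ i, chi L (enum L i) (k (g + inj κ)) = z i := fun i => by
      rw [hk, map_add, chi_mk, hf]
      ring
    have e2 : ∀ o, slope k o (g + inj κ) = slope k o g := fun o => by
      unfold slope
      rw [incr_shift _ hk]
    simpa only [e1, e2] using ht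
  · intro h g
    rw [hcount]
    obtain ⟨o, ho⟩ := Function.ne_iff.mp (h g)
    refine Cycle.existsUnique_pat _ (fun i => slope k (enum L i) g) _
      (i₀ := (enum L).symm o) ?_
    rw [Equiv.apply_symm_apply]
    cases hs : slope k o g <;> cases hg : g₀ o <;> simp_all

theorem good_of_allHold {k : Amb L → sub L} (hk : Equivariant k) (h : AllHold L k) : Good k := by
  have hS : ∀ o o', o' ≠ o → Step (chi L o) (st L o') 0 k := fun o o' ho =>
    (holds_stepRoles _ (chi_surjective o) _ _ _ hk).mp (h (.chiSt o ⟨o', ho⟩) _ rfl)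
  have hB : ∀ b, IsBit (chi L (some b)) (st L (some b)) k := fun b =>
    (holds_bitRoles (three_le_prm L b) _ (chi_surjective _) _ _ _ hk).mp (h (.bit b) _ rfl)
  refine ⟨fun d => ?_, fun d => ?_, hS, fun b hb => ?_, fun d => ?_, hB, fun g => ?_⟩
  · exact (holds_stepRoles _ phi0_surjective _ _ _ hk).mp (h (.twist d) _ rfl)
  · exact (holds_stepRoles _ phi1_surjective _ _ _ hk).mp (h (.still d) _ rfl)
  · exact (holds_stepRoles _ (chi_surjective _) _ _ _ hk).mp (h (.chiPer ⟨b, hb⟩) _ rfl)
  · exact (holds_stepRoles _ (chi_surjective _) _ _ _ hk).mp (h (.parPer d) _ rfl)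
  · by_contra hg
    exact (holds_clauseRoles hk hS hB _).mp (h (.clause ⟨_, hg⟩) _ rfl) g rfl

theorem allHold_of_good {k : Amb L → sub L} (hk : Equivariant k) (h : Good k) : AllHold L k := by
  intro j R hR
  rcases j with _ | d | d | ⟨o, o'⟩ | b | d | b | g <;>
    simp only [roles, Option.some.injEq, reduceCtorEq] at hR <;> subst hR
  · exact (holds_stepRoles _ phi0_surjective _ _ _ hk).mpr (h.twist d)
  · exact (holds_stepRoles _ phi1_surjective _ _ _ hk).mpr (h.still d)
  · exact (holds_stepRoles _ (chi_surjective o) _ _ _ hk).mpr (h.chiSt o o'.1 o'.2)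
  · exact (holds_stepRoles _ (chi_surjective _) _ _ _ hk).mpr (h.chiPer b.1 b.2)
  · exact (holds_stepRoles _ (chi_surjective _) _ _ _ hk).mpr (h.parPer d)
  · exact (holds_bitRoles (three_le_prm L b) _ (chi_surjective _) _ _ _ hk).mpr (h.bit b)
  · exact (holds_clauseRoles hk h.chiSt h.bit g.1).mpr fun x hx => g.2 (hx ▸ h.clause x)

end

end Vale.Agent.P043.Gadget.Four
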