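import Vale.Agent.P043.Gadget.Basic

/-!
P043 gadgets in rank two: the finite group of a line system. Coordinates are indexed by
`Option L.B`; `none` is the slope along the parity axis.
-/

namespace Vale.Agent.P043.Gadget.Four

variable (L : LineSys)

instance instFintypeVars : Fintype L.B := L.fintypeB

instance instDecidableEqVars : DecidableEq L.B := L.decEqB

/-- The odd prime attached to a variable. -/
noncomputable def prm (b : L.B) : ℕ :=
  Nat.nth Nat.Prime ((Fintype.equivFin L.B b : ℕ) + 1)

theorem prm_prime (b : L.B) : (prm L b).Prime := by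
  unfold prm
  exact Nat.prime_nth_prime _

theorem prm_injective : Function.Injective (prm L) := by
  intro a b h
  unfold prm at h
  have := Nat.nth_injective Nat.infinite_setOfPred_prime h
  exact (Fintype.equivFin _).injective (Fin.ext (by omega))

theorem three_le_prm (b : L.B) : 3 ≤ prm L b := by
  unfold prm
  refine le_trans (le_of_eq Nat.nth_prime_one_eq_three.symm) ?_
  exact Nat.nth_monotone Nat.infinite_setOfPred_prime (by omega)

/-- The order of a coordinate. -/
noncomputable abbrev qO : Option L.B → ℕ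
  | none => 2
  | some b => prm L b

theorem one_lt_qO : ∀ o, 1 < qO L o
  | none => one_lt_two
  | some b => (prm_prime L b).one_lt

instance instNeZeroPrm (b : L.B) : NeZero (prm L b) := ⟨(prm_prime L b).ne_zero⟩

instance instFactPrm (b : L.B) : Fact (1 < prm L b) := ⟨(prm_prime L b).one_lt⟩

instance instNeZeroQO (o : Option L.B) : NeZero (qO L o) :=
  ⟨Nat.ne_zero_of_lt (one_lt_qO L o)⟩

/-- The finite group. -/
abbrev Gam : Type := (ZMod 4 × ZMod 2) × ((b : L.B) → ZMod (prm L b) × ZMod (prm L b))

/-- The visible coordinates. -/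
noncomputable def base : Gam L →+ ZMod 2 × ((b : L.B) → ZMod (prm L b)) where
  toFun γ := (ZMod.castHom (by norm_num : 2 ∣ 4) (ZMod 2) γ.1.1, fun b => (γ.2 b).1)
  map_zero' := by ext <;> simp
  map_add' a b := by ext <;> simp

/-- The fibre subgroup. -/
noncomputable def sub : AddSubgroup (Gam L) := (base L).ker

variable {L}

theorem mem_sub {γ : Gam L} : γ ∈ sub L ↔
    ZMod.castHom (by norm_num : 2 ∣ 4) (ZMod 2) γ.1.1 = 0 ∧ ∀ b, (γ.2 b).1 = 0 := by
  simp [sub, base, Prod.ext_iff, funext_iff]

/-- High digit modulo four. -/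
def high (i : ZMod 4) : ZMod 2 := if i = 2 ∨ i = 3 then 1 else 0

theorem high_add_of_even : ∀ a b : ZMod 4,
    ZMod.castHom (by norm_num : 2 ∣ 4) (ZMod 2) b = 0 → high (a + b) = high a + high b := by
  decide

theorem high_markers : ∀ i p : ZMod 4,
    (high (i + 1) + high (i + 1 - p)) - (high i + high (i - p))
      = ZMod.castHom (by norm_num : 2 ∣ 4) (ZMod 2) p := by
  decide

/-- Double of the high digit. -/
def dbl (f : ZMod 2) : ZMod 4 := if f = 0 then 0 else 2

theorem cast_dbl : ∀ f : ZMod 2, ZMod.castHom (by norm_num : 2 ∣ 4) (ZMod 2) (dbl f) = 0 := by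
  decide

theorem high_dbl : ∀ f : ZMod 2, high (dbl f) = f := by decide

variable (L)

/-- The first marker. -/
noncomputable def phi0 : sub L →+ ZMod 2 where
  toFun κ := high κ.1.1.1
  map_zero' := rfl
  map_add' _ b := high_add_of_even _ _ (mem_sub.mp b.2).1

/-- The coordinates. -/
noncomputable def chi : (o : Option L.B) → sub L →+ ZMod (qO L o)
  | none => { toFun := fun κ => κ.1.1.2, map_zero' := rfl, map_add' := fun _ _ => rfl }
  | some b => { toFun := fun κ => (κ.1.2 b).2, map_zero' := rfl, map_add' := fun _ _ => rfl }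

/-- The second marker. -/
noncomputable def phi1 : sub L →+ ZMod 2 := phi0 L + chi L none

variable {L}

/-- The element of the fibre with prescribed coordinates. -/
noncomputable def mk (f0 : ZMod 2) (f : (o : Option L.B) → ZMod (qO L o)) : sub L :=
  ⟨((dbl f0, f none), fun b => (0, f (some b))), mem_sub.mpr ⟨cast_dbl f0, fun _ => rfl⟩⟩

theorem phi0_mk (f0 : ZMod 2) (f : (o : Option L.B) → ZMod (qO L o)) :
    phi0 L (mk f0 f) = f0 := high_dbl f0

theorem chi_mk (f0 : ZMod 2) (f : (o : Option L.B) → ZMod (qO L o)) (o : Option L.B) :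
    chi L o (mk f0 f) = f o := by
  cases o <;> rfl

theorem ext_sub {κ κ' : sub L} (h0 : phi0 L κ = phi0 L κ') (h : ∀ o, chi L o κ = chi L o κ') :
    κ = κ' := by
  obtain ⟨h1, h2⟩ := mem_sub.mp κ.2
  obtain ⟨h1', h2'⟩ := mem_sub.mp κ'.2
  refine Subtype.ext (Prod.ext (Prod.ext ?_ (h none)) (funext fun b => ?_))
  · have key : ∀ a a' : ZMod 4, ZMod.castHom (by norm_num : 2 ∣ 4) (ZMod 2) a = 0 →
        ZMod.castHom (by norm_num : 2 ∣ 4) (ZMod 2) a' = 0 → high a = high a' → a = a' := by
      decide
    exact key _ _ h1 h1' h0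
  · exact Prod.ext ((h2 b).trans (h2' b).symm) (h (some b))

variable (L)

/-- The ambient group. -/
abbrev Amb : Type := (ℤ × ℤ) × Gam L

/-- The generators of the finite base. -/
noncomputable def st : Option L.B → Amb L
  | none => (0, ((1, 0), 0))
  | some b => (0, (0, Pi.single b ((1 : ZMod (prm L b)), (0 : ZMod (prm L b)))))

/-- The base coordinates. -/
noncomputable def rho : (o : Option L.B) → Amb L →+ ZMod (qO L o)
  | none =>
    { toFun := fun g => ZMod.castHom (by norm_num : 2 ∣ 4) (ZMod 2) g.2.1.1
      map_zero' := map_zero _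
      map_add' := fun _ _ => map_add _ _ _ }
  | some b =>
    { toFun := fun g => (g.2.2 b).1, map_zero' := rfl, map_add' := fun _ _ => rfl }

variable {L}

theorem rho_inj (o : Option L.B) (κ : sub L) : rho L o (inj κ) = 0 := by
  obtain ⟨h1, h2⟩ := mem_sub.mp κ.2
  cases o
  · exact h1
  · exact h2 _

theorem rho_st_self (o : Option L.B) : rho L o (st L o) = 1 := by
  cases o <;> simp [rho, st]

theorem rho_st_ne {o o' : Option L.B} (h : o' ≠ o) : rho L o (st L o') = 0 := by
  cases o with
  | none =>
    cases o' with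
    | none => exact absurd rfl h
    | some b => simp [rho, st]
  | some b =>
    cases o' with
    | none => simp [rho, st]
    | some b' =>
      have hb : b ≠ b' := fun e => h (e ▸ rfl)
      simp [rho, st, Pi.single_eq_of_ne hb]

theorem crt_surjective {ι : Type} [Fintype ι] (n : ι → ℕ)
    (h : Pairwise (Function.onFun Nat.Coprime n)) (a : ∀ i, ZMod (n i)) :
    ∃ z : ℤ, ∀ i, (z : ZMod (n i)) = a i := by
  obtain ⟨z, hz⟩ := ZMod.intCast_surjective ((ZMod.prodEquivPi n h).symm a)
  refine ⟨z, fun i => ?_⟩
  have : (ZMod.prodEquivPi n h) (z : ZMod (∏ i, n i)) = a := by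
    rw [hz, RingEquiv.apply_symm_apply]
  rw [← this, map_intCast]
  rfl

/-- The group has two generators. -/
theorem exists_generators : ∃ π : (Fin 2 → ℤ) →+ Gam L, Function.Surjective π := by
  classical
  let π : (Fin 2 → ℤ) →+ Gam L :=
    { toFun := fun v => (((v 0 : ZMod 4), (v 1 : ZMod 2)),
        fun b => ((v 0 : ZMod (prm L b)), (v 1 : ZMod (prm L b))))
      map_zero' := by ext <;> simp
      map_add' := fun a b => by ext <;> simp }
  refine ⟨π, ?_⟩
  rintro ⟨⟨i, j⟩, fb⟩
  have hcop : ∀ t : ℕ, t = 2 ∨ t = 4 → Pairwise (Function.onFun Nat.Coprime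
      (fun o : Option L.B => o.elim t (prm L))) := by
    intro t ht a b hab
    have h2 : ∀ x, Nat.Coprime t (prm L x) := by
      intro x
      have h2' : Nat.Coprime 2 (prm L x) :=
        (Nat.coprime_primes Nat.prime_two (prm_prime L x)).mpr
          (by have := three_le_prm L x; omega)
      rcases ht with rfl | rfl
      · exact h2'
      · exact Nat.Coprime.mul_left h2' h2'
    rcases a with _ | a <;> rcases b with _ | b
    · exact absurd rfl hab
    · exact h2 b
    · exact (h2 a).symm
    · exact (Nat.coprime_primes (prm_prime L a) (prm_prime L b)).mpr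
        (fun e => hab (congrArg some (prm_injective L e)))
  obtain ⟨z0, h0⟩ := crt_surjective _ (hcop 4 (Or.inr rfl)) fun o => match o with
    | none => i
    | some b => (fb b).1
  obtain ⟨z1, h1⟩ := crt_surjective _ (hcop 2 (Or.inl rfl)) fun o => match o with
    | none => j
    | some b => (fb b).2
  exact ⟨![z0, z1], Prod.ext (Prod.ext (h0 none) (h1 none))
    (funext fun b => Prod.ext (h0 (some b)) (h1 (some b)))⟩

end Vale.Agent.P043.Gadget.Four
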