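import Vale.Agent.P043.Gadget.Four.Eqns

/-!
P043 gadgets in rank two: a section satisfying the equations gives a solution.
-/

namespace Vale.Agent.P043.Gadget.Four

variable {L : LineSys}

/-- The values read off at the origin of the finite factor. -/
noncomputable def readOff (k : Amb L → sub L) (x : ℤ × ℤ) (b : L.B) : Bool :=
  slope k (some b) (x, 0)

theorem incr_add_of_step {n : ℕ} {φ : sub L →+ ZMod n} {w : Amb L} {e : ZMod n}
    {k : Amb L → sub L} (h : Step φ w e k) (δ g : Amb L) :
    incr φ δ k (g + w) = incr φ δ k g := by
  simp only [incr]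
  rw [add_right_comm g w δ, h (g + δ), h g]
  ring

theorem slope_eq_of_step {k : Amb L → sub L} {o : Option L.B} {w : Amb L}
    (h : Step (chi L o) w 0 k) (g : Amb L) : slope k o (g + w) = slope k o g := by
  unfold slope
  rw [incr_add_of_step h]

/-- Twice the parity generator lies in the fibre. -/
theorem st_none_add_self : st L none + st L none = inj (mk (L := L) 1 0) := by
  refine Prod.ext (by simp [st, inj]) (Prod.ext (Prod.ext ?_ ?_) (funext fun b => ?_))
  · simp [st, inj, mk]
    decide
  · simp [st, inj, mk]
  · simp [st, inj, mk]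
    rfl

theorem phi0_incr_st {k : Amb L → sub L} (hk : Equivariant k) (g : Amb L) :
    incr (phi0 L) (st L none) k (g + st L none) = incr (phi0 L) (st L none) k g + 1 := by
  simp only [incr]
  rw [add_assoc, st_none_add_self, hk, map_add]
  rw [phi0_mk]
  generalize phi0 L (k (g + st L none)) = a
  generalize phi0 L (k g) = b
  revert a b
  decide

theorem marker_flip {k : Amb L → sub L} (hk : Equivariant k) (h : Good k) (d : Bool)
    (g : Amb L) : slope k none (g + eV L d) = !slope k none g := by
  have hsum : ∀ g, incr (chi L none) (st L none) k g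
      = incr (phi0 L) (st L none) k g + incr (phi1 L) (st L none) k g := by
    intro g
    simp only [incr, phi1, AddMonoidHom.add_apply]
    show (_ : ZMod 2) = _
    generalize phi0 L (k (g + st L none)) = a
    generalize chi L none (k (g + st L none)) = a'
    generalize phi0 L (k g) = b
    generalize chi L none (k g) = b'
    exact (show ∀ a a' b b' : ZMod 2, a' - b' = a - b + (a + a' - (b + b')) by decide) a a' b b'
  have h0 : incr (phi0 L) (st L none) k (g + eV L d) + 1 = incr (phi0 L) (st L none) k g := by
    rw [← phi0_incr_st hk, add_assoc]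
    exact incr_add_of_step (h.twist d) _ _
  have h1 := incr_add_of_step (h.still d) (st L none) g
  have key : ∀ a a' b : ZMod 2, a' + 1 = a →
      decide (a' + b = (1 : ZMod 2)) = !decide (a + b = (1 : ZMod 2)) := by decide
  unfold slope
  rw [hsum, hsum, h1]
  exact key _ _ _ h0

theorem readOff_isSol {k : Amb L → sub L} (hk : Equivariant k) (h : Good k) :
    L.IsSol (readOff k) := by
  have hal : ∀ x : ℤ × ℤ, slope k none (x, 0)
      = xor (readOff k x L.parX) (readOff k x L.parY) := fun x => (h.clause (x, 0)).2
  have hmove : ∀ (x : ℤ × ℤ) (d : Bool),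
      ((x, 0) : Amb L) + eV L d = (x + (if d then (0, 1) else (1, 0)), 0) := by
    intro x d
    simp [eV]
  have hpar : ∀ (x : ℤ × ℤ) (d : Bool),
      readOff k (x + (if (!d) then (0, 1) else (1, 0))) (parBit L d)
        = readOff k x (parBit L d) := by
    intro x d
    have := slope_eq_of_step (h.parPer d) (x, 0)
    rwa [hmove] at this
  have hX : ∀ x, readOff k (x + (0, 1)) L.parX = readOff k x L.parX := fun x => by
    simpa [parBit] using hpar x false
  have hY : ∀ x, readOff k (x + (1, 0)) L.parY = readOff k x L.parY := fun x => by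
    simpa [parBit] using hpar x true
  refine ⟨fun x b => ?_, fun x => ?_, hX, hY, fun x => ?_, fun x => (h.clause (x, 0)).1⟩
  · rcases eq_or_ne (L.per b) 0 with hb | hb
    · rw [hb, add_zero]
    · have := slope_eq_of_step (h.chiPer b hb) (x, 0)
      simpa [readOff] using this
  · have e := marker_flip hk h false ((x, 0) : Amb L)
    rw [hmove] at e
    simp only [Bool.false_eq_true, if_false] at e
    rw [hal, hal, hY] at e
    revert e
    cases readOff k (x + (1, 0)) L.parX <;> cases readOff k x L.parX <;>
      cases readOff k x L.parY <;> simp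
  · have e := marker_flip hk h true ((x, 0) : Amb L)
    rw [hmove] at e
    simp only [if_true] at e
    rw [hal, hal, hX] at e
    revert e
    cases readOff k (x + (0, 1)) L.parY <;> cases readOff k x L.parX <;>
      cases readOff k x L.parY <;> simp

theorem zeroSet_periodic_perSol {k : Amb L → sub L} (hk : Equivariant k) (h : Good k)
    (hper : IsPeriodic (zeroSet k)) : L.IsPerSol (readOff k) := by
  obtain ⟨H, hfin, hH⟩ := hper
  have hinv : ∀ v ∈ H, ∀ g, k (g + v) = k g := by
    intro v hv g
    rw [← sub_inj_mem_iff hk]
    have e : g + v - inj (k g) = g - inj (k g) + v := by abel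
    rw [e, hH v hv]
    exact (sub_inj_mem_iff hk g _).mpr rfl
  refine ⟨readOff_isSol hk h, H.index, Nat.pos_of_ne_zero hfin.index_ne_zero, fun x => ?_⟩
  have key : ∀ v : ℤ × ℤ, ∀ b, readOff k (x + H.index • v) b = readOff k x b := by
    intro v b
    have hmem : H.index • ((v, 0) : Amb L) ∈ H := H.nsmul_index_mem _
    have e1 := hinv _ hmem ((x, 0) : Amb L)
    have e2 := hinv _ hmem ((x, 0) + st L (some b) : Amb L)
    rw [add_right_comm] at e2
    rw [show ((x, 0) : Amb L) + H.index • ((v, 0) : Amb L) = (x + H.index • v, 0) by
      simp [Prod.smul_mk]] at e1 e2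
    unfold readOff slope incr
    rw [e1, e2]
  constructor <;> funext b
  · simpa using key (1, 0) b
  · simpa using key (0, 1) b

end Vale.Agent.P043.Gadget.Four
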